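import Vale.Agent.P281.H64.TS.Spec

/-!
# P281, project T-S, block A6: linear algebra of an integral cochain complex
-/

open Set

noncomputable section

namespace Vale.Agent.P281.H48.TS

open Vale.Agent.P281.H64.TK.TS

section
variable {A : Type} {R R' : Type} [AddCommGroup R] [AddCommGroup R'] {K3 : A → A → A → Prop}
  {K4 : A → A → A → A → Prop}

theorem coc_map (φ : R →+ R') {c : A → A → A → R} (h : IsCoc K3 K4 c) :
    IsCoc K3 K4 (fun a b e => φ (c a b e)) := by
  refine ⟨fun a b e hk => ?_, fun a b e f hk => ?_⟩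
  · show φ (c a b e) = 0
    rw [h.1 a b e hk, map_zero]
  · show φ (c b e f) - φ (c a e f) + φ (c a b f) - φ (c a b e) = 0
    rw [← map_sub, ← map_add, ← map_sub, h.2 a b e f hk, map_zero]

theorem cob_map (φ : R →+ R') {c : A → A → A → R} (h : IsCob K3 c) :
    IsCob K3 (fun a b e => φ (c a b e)) := by
  obtain ⟨g, hg⟩ := h
  refine ⟨fun a b => φ (g a b), fun a b e hk => ?_⟩
  show φ (c a b e) = _
  rw [hg a b e hk, map_add, map_sub]

theorem cob_add {c c' : A → A → A → R} (h : IsCob K3 c) (h' : IsCob K3 c') :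
    IsCob K3 (fun a b e => c a b e + c' a b e) := by
  obtain ⟨g, hg⟩ := h
  obtain ⟨g', hg'⟩ := h'
  refine ⟨fun a b => g a b + g' a b, fun a b e hk => ?_⟩
  show c a b e + c' a b e = (g b e + g' b e) - (g a e + g' a e) + (g a b + g' a b)
  rw [hg a b e hk, hg' a b e hk]
  abel

theorem cob_zero : IsCob K3 (fun _ _ _ => (0 : R)) (A := A) :=
  ⟨fun _ _ => 0, fun a b e _ => by simp⟩

theorem cob_sum {ι : Type} (s : Finset ι) {c : ι → A → A → A → R} (h : ∀ i ∈ s, IsCob K3 (c i)) :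
    IsCob K3 (fun a b e => ∑ i ∈ s, c i a b e) := by
  classical
  induction s using Finset.induction_on with
  | empty => simpa using cob_zero
  | insert i s hi ih =>
    have := cob_add (h i (Finset.mem_insert_self i s))
      (ih fun j hj => h j (Finset.mem_insert_of_mem hj))
    simpa only [Finset.sum_insert hi] using this

end

section
variable {A : Type} (K3 : A → A → A → Prop) (K4 : A → A → A → A → Prop)

/-- Integral cocycles. -/
def ZZ : Submodule ℤ (A → A → A → ℤ) where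
  carrier := {c | IsCoc K3 K4 c}
  zero_mem' := ⟨fun _ _ _ _ => rfl, fun _ _ _ _ _ => by simp⟩
  add_mem' := by
    intro c c' h h'
    refine ⟨fun a b e hk => ?_, fun a b e f hk => ?_⟩
    · show c a b e + c' a b e = 0
      rw [h.1 a b e hk, h'.1 a b e hk, add_zero]
    · show c b e f + c' b e f - (c a e f + c' a e f) + (c a b f + c' a b f) -
        (c a b e + c' a b e) = 0
      have h1 := h.2 a b e f hk
      have h2 := h'.2 a b e f hk
      linarith
  smul_mem' := by
    intro k c h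
    have := coc_map (AddMonoidHom.mulLeft k) h
    exact this

/-- Rational coboundaries. -/
def BB : Submodule ℤ (ZZ K3 K4) where
  carrier := {c | IsCob K3 (fun a b e => (c.1 a b e : ℚ))}
  zero_mem' := by
    refine ⟨fun _ _ => 0, fun a b e _ => ?_⟩
    simp
  add_mem' := by
    intro c c' h h'
    have := cob_add h h'
    simpa using this
  smul_mem' := by
    intro k c h
    have := cob_map (AddMonoidHom.mulLeft (k : ℚ)) h
    simpa using this

theorem mem_BB {c : ZZ K3 K4} : c ∈ BB K3 K4 ↔ IsCob K3 (fun a b e => (c.1 a b e : ℚ)) := Iff.rfl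

theorem BB_sat {k : ℤ} (hk : k ≠ 0) {c : ZZ K3 K4} (h : k • c ∈ BB K3 K4) : c ∈ BB K3 K4 := by
  rw [mem_BB] at h ⊢
  have := cob_map (AddMonoidHom.mulLeft ((k : ℚ)⁻¹)) h
  have hk' : (k : ℚ) ≠ 0 := by exact_mod_cast hk
  convert this using 4 with a b e
  simp [hk']

instance : Module.IsTorsionFree ℤ (ZZ K3 K4 ⧸ BB K3 K4) := by
  refine Module.IsTorsionFree.of_smul_eq_zero ?_
  intro k x h
  obtain ⟨c, rfl⟩ := Submodule.Quotient.mk_surjective _ x
  by_cases hk : k = 0
  · exact Or.inl hk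
  · right
    rw [← Submodule.Quotient.mk_smul, Submodule.Quotient.mk_eq_zero] at h
    rw [Submodule.Quotient.mk_eq_zero]
    exact BB_sat K3 K4 hk h

end

section
variable {A : Type} (K3 : A → A → A → Prop) (K4 : A → A → A → A → Prop)

/-- Integral basis of the cocycles modulo the rational coboundaries. -/
theorem exists_basis [Fintype A] : ∃ (n : ℕ) (m : Fin n → ZZ K3 K4),
    (∀ c : ZZ K3 K4, ∃ y : Fin n → ℤ, c - ∑ k, y k • m k ∈ BB K3 K4) ∧
      ∀ y : Fin n → ℤ, ∑ k, y k • m k ∈ BB K3 K4 → ∀ k, y k = 0 := by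
  let bas := Module.finBasis ℤ (ZZ K3 K4 ⧸ BB K3 K4)
  choose m hm using fun k => Submodule.Quotient.mk_surjective (BB K3 K4) (bas k)
  refine ⟨_, m, fun c => ⟨fun k => bas.repr (Submodule.Quotient.mk c) k, ?_⟩, fun y hy k => ?_⟩
  · rw [← Submodule.Quotient.mk_eq_zero, Submodule.Quotient.mk_sub, sub_eq_zero]
    conv_lhs => rw [← bas.sum_repr (Submodule.Quotient.mk c)]
    rw [← Submodule.mkQ_apply (BB K3 K4) (∑ k, _), map_sum]
    refine Finset.sum_congr rfl fun k _ => ?_
    rw [map_smul, Submodule.mkQ_apply, hm]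
  · rw [← Submodule.Quotient.mk_eq_zero, ← Submodule.mkQ_apply, map_sum] at hy
    have : ∑ k, y k • bas k = 0 := by
      rw [← hy]
      refine Finset.sum_congr rfl fun k _ => ?_
      rw [map_smul, Submodule.mkQ_apply, hm]
    exact Fintype.linearIndependent_iff.1 bas.linearIndependent y this k

/-- Common denominators. -/
theorem exists_den {ι : Type} [Fintype ι] (q : ι → ℚ) :
    ∃ D : ℤ, D ≠ 0 ∧ ∀ i, ∃ y : ℤ, (D : ℚ) * q i = y := by
  classical
  refine ⟨∏ i, ((q i).den : ℤ), Finset.prod_ne_zero_iff.2 fun i _ => by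
    exact_mod_cast (q i).den_nz, fun i => ?_⟩
  refine ⟨(∏ j ∈ Finset.univ.erase i, ((q j).den : ℤ)) * (q i).num, ?_⟩
  rw [← Finset.mul_prod_erase _ _ (Finset.mem_univ i)]
  push_cast
  have h1 : (q i) * ((q i).den : ℚ) = (q i).num := Rat.mul_den_eq_num (q i)
  rw [← h1]
  ring

variable {K3 K4}

theorem ind_q {n : ℕ} {m : Fin n → ZZ K3 K4}
    (hm : ∀ y : Fin n → ℤ, ∑ k, y k • m k ∈ BB K3 K4 → ∀ k, y k = 0) (q : Fin n → ℚ)
    (h : IsCob K3 (fun a b e => ∑ k, q k * ((m k).1 a b e : ℚ))) : ∀ k, q k = 0 := by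
  obtain ⟨D, hD, hy⟩ := exists_den q
  choose y hy using hy
  have h1 := cob_map (AddMonoidHom.mulLeft (D : ℚ)) h
  have h2 : ∑ k, y k • m k ∈ BB K3 K4 := by
    rw [mem_BB]
    convert h1 using 4 with a b e
    simp only [AddMonoidHom.coe_mulLeft, Finset.mul_sum, ← mul_assoc, hy]
    rw [Submodule.coe_sum]
    simp [Finset.sum_apply]
  intro k
  have h3 := hm y h2 k
  have h4 := hy k
  rw [h3] at h4
  have hD' : (D : ℚ) ≠ 0 := by exact_mod_cast hD
  simpa [hD'] using h4

theorem ind_c {n : ℕ} {m : Fin n → ZZ K3 K4}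
    (hm : ∀ y : Fin n → ℤ, ∑ k, y k • m k ∈ BB K3 K4 → ∀ k, y k = 0) (x : Fin n → ℂ)
    (h : IsCob K3 (fun a b e => ∑ k, x k * ((m k).1 a b e : ℂ))) : ∀ k, x k = 0 := by
  let bs := Module.Basis.ofVectorSpace ℚ ℂ
  have key : ∀ s, ∀ k, bs.repr (x k) s = 0 := by
    intro s
    refine ind_q hm (fun k => bs.repr (x k) s) ?_
    have h1 := cob_map (bs.coord s).toAddMonoidHom h
    convert h1 using 4 with a b e
    simp only [LinearMap.toAddMonoidHom_coe, map_sum]
    refine Finset.sum_congr rfl fun k _ => ?_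
    rw [mul_comm (x k), ← zsmul_eq_mul, map_zsmul, zsmul_eq_mul, mul_comm]
    rfl
  intro k
  have : bs.repr (x k) = 0 := Finsupp.ext fun s => key s k
  simpa using this

theorem ex_q [Fintype A] {n : ℕ} {m : Fin n → ZZ K3 K4}
    (hm : ∀ c : ZZ K3 K4, ∃ y : Fin n → ℤ, c - ∑ k, y k • m k ∈ BB K3 K4) (c : A → A → A → ℚ)
    (hc : IsCoc K3 K4 c) :
    ∃ q : Fin n → ℚ, IsCob K3 (fun a b e => c a b e - ∑ k, q k * ((m k).1 a b e : ℚ)) := by
  obtain ⟨D, hD, hy⟩ := exists_den (fun t : A × A × A => c t.1 t.2.1 t.2.2)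
  choose z hz using hy
  have hD' : (D : ℚ) ≠ 0 := by exact_mod_cast hD
  have h1 : IsCoc K3 K4 (fun a b e => z (a, b, e)) := by
    have h2 := coc_map (AddMonoidHom.mulLeft (D : ℚ)) hc
    simp only [AddMonoidHom.coe_mulLeft] at h2
    refine ⟨fun a b e hk => ?_, fun a b e f hk => ?_⟩
    · have h7 : (D : ℚ) * c a b e = 0 := h2.1 a b e hk
      have h3 : (D : ℚ) * c a b e = z (a, b, e) := hz (a, b, e)
      rw [h7] at h3
      show z (a, b, e) = 0
      exact_mod_cast h3.symm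
    · have h7 : (D : ℚ) * c b e f - D * c a e f + D * c a b f - D * c a b e = 0 :=
        h2.2 a b e f hk
      have h3 : (D : ℚ) * c a b e = z (a, b, e) := hz (a, b, e)
      have h4 : (D : ℚ) * c b e f = z (b, e, f) := hz (b, e, f)
      have h5 : (D : ℚ) * c a e f = z (a, e, f) := hz (a, e, f)
      have h6 : (D : ℚ) * c a b f = z (a, b, f) := hz (a, b, f)
      rw [h3, h4, h5, h6] at h7
      show z (b, e, f) - z (a, e, f) + z (a, b, f) - z (a, b, e) = 0
      exact_mod_cast h7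
  obtain ⟨y, hy⟩ := hm ⟨_, h1⟩
  refine ⟨fun k => (D : ℚ)⁻¹ * y k, ?_⟩
  rw [mem_BB] at hy
  have h3 := cob_map (AddMonoidHom.mulLeft ((D : ℚ)⁻¹)) hy
  convert h3 using 4 with a b e
  have h4 := hz (a, b, e)
  simp only at h4
  simp only [AddMonoidHom.coe_mulLeft]
  rw [Submodule.coe_sub, Submodule.coe_sum]
  simp only [Pi.sub_apply, Finset.sum_apply, Int.cast_sub, Int.cast_sum, mul_sub, Finset.mul_sum,
    ← h4, Submodule.coe_smul, Pi.smul_apply, smul_eq_mul, Int.cast_mul, mul_assoc]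
  rw [← mul_assoc, inv_mul_cancel₀ hD', one_mul]

theorem ex_c [Fintype A] {n : ℕ} {m : Fin n → ZZ K3 K4}
    (hm : ∀ c : ZZ K3 K4, ∃ y : Fin n → ℤ, c - ∑ k, y k • m k ∈ BB K3 K4) (c : A → A → A → ℂ)
    (hc : IsCoc K3 K4 c) :
    ∃ x : Fin n → ℂ, IsCob K3 (fun a b e => c a b e - ∑ k, x k * ((m k).1 a b e : ℂ)) := by
  classical
  let bs := Module.Basis.ofVectorSpace ℚ ℂ
  let S := (Finset.univ : Finset (A × A × A)).biUnion
    fun t => (bs.repr (c t.1 t.2.1 t.2.2)).support
  have h1 : ∀ s, ∃ q : Fin n → ℚ,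
      IsCob K3 (fun a b e => bs.repr (c a b e) s - ∑ k, q k * ((m k).1 a b e : ℚ)) := by
    intro s
    have h2 := coc_map (bs.coord s).toAddMonoidHom hc
    exact ex_q hm _ h2
  choose q hq using h1
  refine ⟨fun k => ∑ s ∈ S, bs s * (q s k : ℂ), ?_⟩
  have h3 := cob_sum S (c := fun s a b e => bs s *
    (((bs.repr (c a b e) s - ∑ k, q s k * ((m k).1 a b e : ℚ) : ℚ)) : ℂ)) (K3 := K3)
    (fun s _ => cob_map ((AddMonoidHom.mulLeft (bs s)).comp
      (Rat.castHom ℂ).toAddMonoidHom) (hq s))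
  convert h3 using 4 with a b e
  have h4 : c a b e = ∑ s ∈ S, bs s * ((bs.repr (c a b e) s : ℚ) : ℂ) := by
    conv_lhs => rw [← bs.linearCombination_repr (c a b e)]
    rw [Finsupp.linearCombination_apply, Finsupp.sum_of_support_subset _ (s := S)]
    · refine Finset.sum_congr rfl fun s _ => ?_
      rw [Rat.smul_def, mul_comm]
    · intro s hs
      exact Finset.mem_biUnion.2 ⟨(a, b, e), Finset.mem_univ _, hs⟩
    · intro s _
      simp
  conv_lhs => rw [h4]
  simp only [Rat.cast_sub, Rat.cast_sum, Rat.cast_mul, Rat.cast_intCast, mul_sub,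
    Finset.sum_sub_distrib, Finset.sum_mul, Finset.mul_sum]
  rw [Finset.sum_comm]
  simp only [mul_assoc]

theorem lin : LinStmt := by
  intro A _ K3 K4 _
  obtain ⟨n, m, h1, h2⟩ := exists_basis K3 K4
  refine ⟨n, fun k => (m k).1, fun k => (m k).2, fun c hc => ?_, fun c hc x hx k => ?_⟩
  · obtain ⟨x, hx⟩ := ex_c h1 c hc
    refine ⟨x, hx, fun x' hx' => ?_⟩
    have h3 := cob_add hx (cob_map (-AddMonoidHom.id ℂ) hx')
    have h4 : IsCob K3 (fun a b e => ∑ k, (x' k - x k) * ((m k).1 a b e : ℂ)) := by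
      convert h3 using 4 with a b e
      simp only [sub_mul, Finset.sum_sub_distrib, AddMonoidHom.neg_apply, AddMonoidHom.id_apply]
      ring
    have h5 := ind_c h2 _ h4
    funext k
    exact sub_eq_zero.1 (h5 k)
  · obtain ⟨y, hy⟩ := h1 ⟨c, hc⟩
    rw [mem_BB] at hy
    have h6 := cob_map (Rat.castHom ℂ).toAddMonoidHom hy
    have h3 := cob_add h6 (cob_map (-AddMonoidHom.id ℂ) hx)
    have h4 : IsCob K3 (fun a b e => ∑ k, (x k - y k) * ((m k).1 a b e : ℂ)) := by
      convert h3 using 4 with a b e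
      simp only [sub_mul, Finset.sum_sub_distrib, AddMonoidHom.neg_apply, AddMonoidHom.id_apply]
      rw [Submodule.coe_sub, Submodule.coe_sum]
      simp
    have h5 := ind_c h2 _ h4
    exact ⟨y k, sub_eq_zero.1 (h5 k)⟩

end

end Vale.Agent.P281.H48.TS
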